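import Vale.Agent.P355.H947.UE.CCA.D

namespace Vale.Agent.P355.H947.UE.CCA

open Vale.Agent.P355 Vale.Agent.P355.H147 Vale.Agent.P355.H998.E

theorem c0 : CX 4 0 0 D cls mv 0 (Nat.add 0 10) := CX.ck 0 10 (by decide +kernel)

theorem c10 : CX 4 0 0 D cls mv 10 (Nat.add 10 13) := CX.ck 10 13 (by decide +kernel)

theorem c23 : CX 4 0 0 D cls mv 23 (Nat.add 23 20) := CX.ck 23 20 (by decide +kernel)

theorem c43 : CX 4 0 0 D cls mv 43 (Nat.add 43 20) := CX.ck 43 20 (by decide +kernel)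

theorem cm0 : CX 4 0 0 D cls mv 0 63 := ((c0).trans (c10)).trans ((c23).trans (c43))

end Vale.Agent.P355.H947.UE.CCA
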