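import Vale.Agent.P355.H947.UE.CCA.D
import Vale.Agent.P355.H947.UE.CCA.B0
import Vale.Agent.P355.H947.UE.CCA.B1
import Vale.Agent.P355.H947.UE.CCA.B2
import Vale.Agent.P355.H947.UE.CCA.B3
import Vale.Agent.P355.H147.Acc3

namespace Vale.Agent.P355.H947.UE.CCA

open Vale.Agent.P355 Vale.Agent.P355.H147 Vale.Agent.P355.H998.E Vale.Agent.P355.H129

noncomputable def t : TyE := ⟨RcE 2 40, 4, 104, 50, 4, 43, 4398046511104, 88, BP, 36, [b0, b1, b2, b3], EL⟩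

theorem bok : BOk 4 G.nu 63 50 4 4398046511104 104 43 [b0, b1, b2, b3] :=
  BOk.cons (BOk.cons (BOk.cons (BOk.cons (BOk.nil _ _ _ _ _ _ _ _) bk3 psd3) bk2 psd2) bk1 psd1) bk0 psd0

theorem tok : t.Ok G.nu 63 :=
  ⟨bok, by decide +kernel, fun e => RcE_le 2 40 e⟩

end Vale.Agent.P355.H947.UE.CCA
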